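import Vale.Agent.P047.Main

/-!
# P047: the order of growth of `M(d)`

`M d` is the supremum of the sum of the degree-one Fourier coefficients over all Boolean functions
of degree at most `d`.
-/

namespace Vale.Agent.Results.P047.GrowthExponent

open _root_.P047

theorem result :
    -- `M d` is a genuine supremum
    (∀ d : ℕ, (values d).Nonempty ∧ BddAbove (values d)) ∧
    -- the growth exponent exists and bounds `M` at every `d`
    (∃ γ : ℝ, 1 / 2 ≤ γ ∧ γ ≤ 1 ∧ (∀ d : ℕ, 1 ≤ d → M d ≤ (d : ℝ) ^ γ) ∧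
      Filter.Tendsto (fun d : ℕ => Real.log (M d) / Real.log (d : ℝ)) Filter.atTop (nhds γ)) ∧
    -- the weak form implies the strong form
    ((∃ C : ℝ, ∀ d : ℕ, 1 ≤ d → M d ≤ C * Real.sqrt d) →
      ∀ (n : ℕ) (f : (Fin n → ℤˣ) → ℤˣ), levelOne f ≤ Real.sqrt (deg f)) ∧
    -- even `M d ≤ d ^ (1/2 + o(1))` implies the strong form
    ((∀ ε : ℝ, 0 < ε → ∃ C : ℝ, ∀ d : ℕ, 1 ≤ d → M d ≤ C * (d : ℝ) ^ (1 / 2 + ε)) →
      ∀ (n : ℕ) (f : (Fin n → ℤˣ) → ℤˣ), levelOne f ≤ Real.sqrt (deg f)) ∧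
    -- one function above the square root forces a larger exponent
    (∀ (n : ℕ) (f : (Fin n → ℤˣ) → ℤˣ), Real.sqrt (deg f) < levelOne f →
      ∃ c : ℝ, 0 < c ∧ ∃ δ : ℝ, 0 < δ ∧ ∀ d : ℕ, 1 ≤ d → c * (d : ℝ) ^ (1 / 2 + δ) ≤ M d) ∧
    -- the upper bound `M d ≤ (√3/2 + O(1/d)) d`
    (∀ d : ℕ, 3 ≤ d →
      M d ≤ ((d : ℝ) + 1) / (2 * d) * Real.sqrt (((d : ℝ) - 1) * (3 * d + 1))) ∧
    -- the square-root bound for partitions into subcubes
    (∀ (n : ℕ) (f : (Fin n → ℤˣ) → ℤˣ) (J : Type) [Fintype J] (T : J → Finset (Fin n))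
      (a : J → Fin n → ℤˣ),
      (∀ x : Fin n → ℤˣ, ∃! j, ∀ i ∈ T j, x i = a j i) →
      (∀ j, ∀ x : Fin n → ℤˣ, (∀ i ∈ T j, x i = a j i) → f x = f (a j)) →
      levelOne f ≤ Real.sqrt (∑ j, ((T j).card : ℝ) / 2 ^ (T j).card)) ∧
    -- the one-sided version
    (∀ (n : ℕ) (f : (Fin n → ℤˣ) → ℤˣ) (J : Type) [Fintype J] (T : J → Finset (Fin n))
      (a : J → Fin n → ℤˣ) (k : ℕ), 1 ≤ k → (∀ j, (T j).card ≤ k) →
      (∀ x : Fin n → ℤˣ, f x = 1 ↔ ∃ j, ∀ i ∈ T j, x i = a j i) →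
      (∀ x : Fin n → ℤˣ, ∀ j j', (∀ i ∈ T j, x i = a j i) → (∀ i ∈ T j', x i = a j' i) → j = j') →
      levelOne f ≤ 2 / Real.sqrt (Real.exp 1) * Real.sqrt ((k : ℝ) + 1)) := by
  have hstrong : (∀ ε : ℝ, 0 < ε → ∃ C : ℝ, ∀ d : ℕ, 1 ≤ d → M d ≤ C * (d : ℝ) ^ (1 / 2 + ε)) →
      ∀ (n : ℕ) (f : (Fin n → ℤˣ) → ℤˣ), levelOne f ≤ Real.sqrt (deg f) := by
    intro h n f
    rcases Nat.eq_zero_or_pos n with hn | hn
    · subst hn
      have : levelOne f = 0 := by simp [levelOne]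
      rw [this]; exact Real.sqrt_nonneg _
    · rcases Nat.eq_zero_or_pos (deg f) with hd | hd
      · have h1 : levelOne f ≤ (deg f : ℝ) := by
          rw [levelOne_eq]
          exact abs_fh_sum_le ((deg_le_iff f _).mp le_rfl)
        rw [hd] at h1 ⊢
        simpa using h1
      · have h1 : levelOne f ≤ M (deg f) := by
          rw [levelOne_eq]
          exact le_M_fin hn ((deg_le_iff f _).mp le_rfl)
        exact h1.trans (strong_of_weak h (deg f) hd)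
  refine ⟨fun d => ⟨values_nonempty d, bdd d⟩, ⟨gam, half_le_gam, gam_le_one,
    fun d hd => M_le_rpow hd, ex_tendsto⟩, ?_, hstrong, fun n f hf => gap f hf, ?_, ?_, ?_⟩
  · rintro ⟨C, hC⟩
    apply hstrong
    intro ε hε
    refine ⟨|C|, fun d hd => ?_⟩
    have hd1 : (1 : ℝ) ≤ d := by exact_mod_cast hd
    have h1 : Real.sqrt d ≤ (d : ℝ) ^ (1 / 2 + ε) := by
      rw [Real.sqrt_eq_rpow]
      exact Real.rpow_le_rpow_of_exponent_le hd1 (by linarith)
    calc M d ≤ C * Real.sqrt d := hC d hd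
      _ ≤ |C| * Real.sqrt d := mul_le_mul_of_nonneg_right (le_abs_self C) (Real.sqrt_nonneg _)
      _ ≤ |C| * (d : ℝ) ^ (1 / 2 + ε) := mul_le_mul_of_nonneg_left h1 (abs_nonneg C)
  · intro d hd
    apply csSup_le (values_nonempty d)
    rintro s ⟨n, _, f, hf, rfl⟩
    rw [levelOne_eq]
    exact upper hd f ((deg_le_iff f d).mp hf)
  · intro n f J _ T a hpart hconst
    rw [levelOne_eq]
    exact lin_partition f T a hpart hconst
  · intro n f J _ T a k hk hT hcover hdisj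
    rw [levelOne_eq]
    exact lin_one_sided f k hk T a hT hcover hdisj

end Vale.Agent.Results.P047.GrowthExponent
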